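import Vale.Agent.Lib.P361.Main

/-- A one sided form of Bloch's law: at inverse temperature `β` with `β S ≥ 36`, where `S = t / 2`,
the right derivative `m` at `h = 0` of the pressure `p` exists and `S - m ≥ (β S) ^ (-3 / 2) / 200000`. -/
theorem Vale.Agent.Results.P361.BlochDeficitLower.result (t : ℕ) (ht : 0 < t) (β : ℝ)
    (hT : 36 ≤ β * ((t : ℝ) / 2)) (p : ℝ → ℝ)
    (hp : ∀ h, Filter.Tendsto (fun N => Vale.Agent.Lib.P361.finitePressure t N β h)
      Filter.atTop (nhds (p h))) :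
    ∃ m, HasDerivWithinAt p m (Set.Ioi 0) 0 ∧
      (1 / 200000) * (β * ((t : ℝ) / 2)) ^ (-(3 / 2 : ℝ)) ≤ (t : ℝ) / 2 - m :=
  Vale.Agent.Lib.P361.bloch_deficit_exists t ht β hT p hp
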