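import Vale.Agent.Lib.P361.SharpFinal

/-- The lower half of Bloch's law with the exact constant: for every spin `S = t / 2` and every
`ε > 0` there is `β0` such that for `β ≥ β0` the right derivative `m` at `h = 0` of the pressure `p`
exists and `S - m ≥ (1 - ε) * (ζ (3 / 2) / (8 π ^ (3 / 2) S ^ (3 / 2))) * β ^ (-3 / 2)`,
where `ζ (3 / 2)` is the series of the inverse powers `3 / 2` of the positive integers. -/
theorem Vale.Agent.Results.P361.BlochSharpLower.result (t : ℕ) (ht : 0 < t) (ε : ℝ) (hε : 0 < ε) :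
    ∃ β0 : ℝ, ∀ β : ℝ, β0 ≤ β → ∀ p : ℝ → ℝ,
      (∀ h, Filter.Tendsto (fun N => Vale.Agent.Lib.P361.finitePressure t N β h)
        Filter.atTop (nhds (p h))) →
      ∃ m : ℝ, HasDerivWithinAt p m (Set.Ioi 0) 0 ∧
        (1 - ε) * ((∑' n : ℕ, 1 / ((n : ℝ) + 1) ^ (3 / 2 : ℝ)) /
          (8 * Real.pi ^ (3 / 2 : ℝ) * ((t : ℝ) / 2) ^ (3 / 2 : ℝ))) * β ^ (-(3 / 2 : ℝ)) ≤
          (t : ℝ) / 2 - m :=
  Vale.Agent.Lib.P361.bloch_sharp t ht ε hε
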